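import Vale.Agent.P073.H239.FSpec1
import Vale.Agent.P073.H194.FlatN
import Vale.Agent.P073.H622.H0

/-!
# P073, block B10, rank one, [PL-B]: the plane and the line
-/

open Set Metric Topology Filter MeasureTheory

namespace Vale.Agent.P073.H51

open Vale.Agent.P073
open Vale.Agent.P073.St (V Mat)
open Vale.Agent.P073.AB (Idx Part squ MinSq)
open Vale.Agent.P073.AB.P86 (dyo_sub_dyc cen_mem cen)
open Vale.Agent.P073.H194 (RgN up sc_up Sc squ_sub_RgN minSq_rectN minEdge_rectN cov_rectN)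
open Vale.Agent.P073.H235 (Bx bm Co)
open Vale.Agent.P073.H253 (rectN redgeN)
open Vale.Agent.P073.H239 (PlB1 SpecPlB)
open Vale.Agent.P073.H732 (upz)
open _root_.P073.Net (dyc dyo)

/-- the cubes of the partition of Round 1 which touch a set off the boxes are cubes of `I` -/
theorem mem_of_part1 {v : V} {K : Set Idx} {n k₁ : Idx → ℕ} {I : Set Idx} {R : Set V}
    (hn : ∀ k ∈ K, k.1 ≤ n k) (hR : ∀ k ∈ K, Disjoint (dyc v k.1 k.2) R) {x : V} (hx : x ∈ R)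
    {q : Idx} (hq : q ∈ H696.part1 v K n k₁ I) (hxq : x ∈ dyc v q.1 q.2) : q ∈ I := by
  rcases hq with h | ⟨k, hk, -, z, hz, hs⟩
  · exact h.1
  · exfalso
    refine Set.disjoint_left.1 (hR k hk) ?_ hx
    have h1 : dyc v (n k) z ⊆ dyc v k.1 k.2 := H622.blk_sub (hn k hk) hz v
    exact h1 (hs hxq)

theorem specPlB : SpecPlB := by
  intro p Cu Lc δ j ε θ₁ θ₂ ν₁ τ Λ f F v X I k₁ m₀ nS B₁ B₂ α β hθ₁ hθ₂ hν₁ hB₁ hB₂ hm hnS hα hlt
    hunit hmem hsub hcov hI₁ hoff hmn hgen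
  have hSc := sc_up hmn α β
  have hp0 : (0:ℝ) < 2 ^ m₀ := by positivity
  have hpn : (0:ℝ) < 2 ^ nS := by positivity
  have hup : ∀ B : ℤ, ((upz m₀ nS B : ℤ) : ℝ) / 2 ^ nS = B / 2 ^ m₀ := by
    intro B
    unfold upz
    push_cast
    rw [div_eq_div_iff hpn.ne' hp0.ne']
    have : (2:ℝ) ^ nS = 2 ^ (nS - m₀) * 2 ^ m₀ := by rw [← pow_add]; congr 1; omega
    rw [this]; ring
  have hn : ∀ k ∈ X.K, k.1 ≤ X.n k := fun k hk => by have := (X.box k hk).2.1; omega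
  have ht : ∀ x ∈ RgN 1 v m₀ α β, ∀ q ∈ X.I₁, x ∈ dyc v q.1 q.2 → q.1 = nS := by
    intro x hx q hq hxq
    rw [hI₁] at hq
    exact hgen x hx q (mem_of_part1 hn hoff hx hq hxq) hxq
  have h2 : (0:ℤ) < 2 ^ (nS - m₀) := by positivity
  refine ⟨hnS, fun i hi => ?_, ?_, ?_, ?_, fun k hk => ?_, fun i hi k hk => ?_, ?_, ?_, ?_, ?_⟩
  · exact mul_lt_mul_of_pos_left (hlt i hi) h2
  · have e1 := hSc.div_a 0
    have e2 := hSc.div_b 0
    rw [sub_div] at hunit ⊢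
    rw [e1, e2]
    exact hunit
  · refine subset_trans ?_ hsub
    rintro x ⟨hx1, hx2⟩
    refine ⟨?_, fun i hi => ?_⟩
    · rw [← hSc.div_a 1]; exact hx1
    · rw [← hSc.div_a i, ← hSc.div_b i]; exact hx2 i hi
  · rw [hSc.div_a 1, hα]
    exact hB₁.trans hm
  · exact minSq_rectN X.st.part hsub hSc ht hk
  · exact minEdge_rectN X.st.part hsub hSc ht hi hk
  · intro x hx
    exact cov_rectN hSc x hlt (hcov x hx)
  · intro k hk q hq
    obtain ⟨k', hk', hqk⟩ := X.st.inBox q hq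
    exact ((hoff k' hk').mono_left hqk).mono_right (squ_sub_RgN hSc hk)
  · exact ⟨mul_le_mul_of_nonneg_left hmem.1 h2.le, mul_le_mul_of_nonneg_left hmem.2 h2.le⟩
  · rw [hup]
    exact hB₂.trans hm

end Vale.Agent.P073.H51
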