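import Vale.Agent.P073.H234.ChainDef
import Vale.Agent.P073.H911.DeepVol
import Vale.Agent.P073.H622.H0

/-!
# P073, [CHAIN] (B): the data of Round 2 from the data of the chain
-/

open Set Metric Topology Filter MeasureTheory Matrix
open scoped ENNReal NNReal

namespace Vale.Agent.P073.H51

open Vale.Agent.P073
open Vale.Agent.P073.St (V Mat)
open Vale.Agent.P073.SQ (ev)
open Vale.Agent.P073.AB (Idx Part edge eInt cl RatGood)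
open Vale.Agent.P073.AB.P86 (dyo_sub_dyc cen_mem cen)
open Vale.Agent.P073.H73 (MinEdge)
open Vale.Agent.P073.H194 (cellT Gen)
open Vale.Agent.P073.H696
open Vale.Agent.P073.H239 (DomL DomO ChOut enX)
open Vale.Agent.P073.H726 (LBOn)
open Vale.Agent.P073.H851 (M3)
open _root_.P073 (ConHomeo)
open _root_.P073.Net (dyc dyo)

/-! ### Generations of the solid cubes -/

section gen

variable {Ω : Set V} {v : V} {H : V → ℝ≥0∞} {K : Set Idx} {n N k₁ : Idx → ℕ} {r : V → ℝ}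
  {εD : ℝ≥0∞} {tolD : Idx → ℝ≥0∞} {I : Set Idx} {N' : Idx → ℕ}

theorem interior_dyc (v : V) (n : ℕ) (z : Fin 3 → ℤ) : interior (dyc v n z) = dyo v n z := by
  have h : dyc v n z = Set.pi univ (fun k => Icc (v k + z k / 2 ^ n) (v k + (z k + 1) / 2 ^ n)) := by
    ext x; simp only [dyc, Set.mem_ofPred_eq, Set.mem_pi, mem_univ, forall_true_left, mem_Icc]
  rw [h, interior_pi_set finite_univ]
  ext x; simp only [dyo, Set.mem_ofPred_eq, Set.mem_pi, mem_univ, forall_true_left, interior_Icc,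
    mem_Ioo]

/-- a closed box and an open box with a common point are equal -/
theorem box_unique (hdis : ∀ k ∈ K, ∀ k' ∈ K, k ≠ k' → Disjoint (dyo v k.1 k.2) (dyo v k'.1 k'.2))
    {k k' : Idx} (hk : k ∈ K) (hk' : k' ∈ K) {y : V} (hy : y ∈ dyc v k.1 k.2)
    (hy' : y ∈ dyo v k'.1 k'.2) : k = k' := by
  by_contra hne
  obtain ⟨z, hz, hz'⟩ := mem_closure_iff.1 (_root_.P073.Net.NG1.dyc_sub_closure v k.1 k.2 hy) _
    (_root_.P073.Net.isOpen_dyo v k'.1 k'.2) hy'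
  exact Set.disjoint_left.1 (hdis k hk k' hk' hne) hz' hz

/-- the generation of a solid cube -/
theorem solid_gen (hdis : ∀ k ∈ K, ∀ k' ∈ K, k ≠ k' → Disjoint (dyo v k.1 k.2) (dyo v k'.1 k'.2))
    (hn : ∀ k ∈ K, k.1 ≤ n k) (Dm : Dom Ω v H K n N r εD tolD I N') {k q : Idx} (hk : k ∈ K)
    (hq : q ∈ solid v K n (part1 v K n k₁ I)) (hqk : dyc v q.1 q.2 ⊆ dyc v k.1 k.2) :
    q.1 = n k + k₁ k ∨ q.1 = N k := by
  obtain ⟨h1, k', hk', y, hy, hyb⟩ := hq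
  have e1 : k = k' := box_unique hdis hk hk' (hqk hy) (H911.blkS_sub (hn k' hk') hyb)
  subst e1
  rcases h1 with h | ⟨k₂, hk₂, hg, z, hz, hs⟩
  · right
    rcases Dm.out k hk q h.1 hqk with h2 | h2
    · exact h2.1
    · exact (Set.disjoint_left.1 h2.2 hy hyb).elim
  · left
    have h3 : dyc v (n k₂) z ⊆ dyc v k₂.1 k₂.2 := H622.blk_sub (hn k₂ hk₂) hz v
    have h4 : cen v q.1 q.2 ∈ dyo v q.1 q.2 := cen_mem v _ _
    have h5 : cen v q.1 q.2 ∈ dyc v k₂.1 k₂.2 := h3 (hs (dyo_sub_dyc h4))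
    have h6 : dyo v q.1 q.2 ⊆ dyo v k.1 k.2 := by
      rw [← interior_dyc, ← interior_dyc]
      exact interior_mono hqk
    have e2 : k₂ = k := box_unique hdis hk₂ hk h5 (h6 h4)
    subst e2
    exact hg

end gen

/-! ### Round 1 with smaller numbers -/

theorem st1_mono {p ε₁ ε : ℝ} {Ω Λ : Set V} {f : V → V} {F : V → Mat} {v : V} {H : V → ℝ≥0∞}
    {K : Set Idx} {x : Idx → V} {n : Idx → ℕ} {c₀ E Eq : Idx → ℝ} {δs : V → ℝ}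
    {tol : Idx → ℝ≥0∞} {I₁ S : Set Idx} {h₁ : ConHomeo Ω Λ} (h : ε₁ ≤ ε)
    (St : St1 p ε₁ Ω Λ f F v H K x n c₀ E Eq δs tol I₁ S h₁) :
    St1 p ε Ω Λ f F v H K x n c₀ E Eq δs tol I₁ S h₁ :=
  { St with close := fun y hy => ⟨(St.close y hy).1.trans h, (St.close y hy).2⟩ }

/-! ### The data of Round 2 -/

section mk

variable {p Cu : ℝ} {Lc : M3 → ℝ} {δ : ℝ} {j : ℕ} {ε' εB M₀ ε₁ : ℝ} {Ω Λ : Set V} {f : V → V}
  {F : V → Mat} {v : V} {nn : ℕ → ℕ} {c : ℝ≥0∞} {τ φ κ μ : V → ℝ} {s : V → ℕ} {K : Set Idx}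
  {x : Idx → V} {c₀ : V → ℝ} {a k₁ : V → ℕ} {E₀ : V → ℝ} {Eq : Idx → ℝ} {δs : V → ℝ}
  {tol : Idx → ℝ≥0∞} {I : Set Idx} {N' : Idx → ℕ} {r : V → ℝ} {εD : ℝ≥0∞} {tolD : Idx → ℝ≥0∞}
  {h₁ : ConHomeo Ω Λ} {W : {k // k ∈ K} → ℝ≥0∞} {δt ρ : V → ℝ} {J₀ J : Set Idx}
  {κ' : Idx → {k // k ∈ K}} {nt : Idx → ℕ} {w : Idx → Fin 3 → ℤ} {Act Core CoreN : Set V}
  {Tt : ConHomeo Λ Λ}

/-- **the data of Round 2** from the data of the chain -/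
noncomputable def mkR2 (hε' : 0 < ε' ∧ ε' ≤ 1) (hCu : 1 ≤ Cu) (hLc : ∀ M, 1 ≤ Lc M) (hj : 7 ≤ j)
    (hδ : 0 < δ) (hΩ : St.IsBoundedDomain Ω) (hΛ : St.IsBoundedDomain Λ) (hf : St.IsHomeo Ω Λ f)
    (B : Boxes p εB M₀ c τ φ κ μ s Ω Λ f F v nn K x)
    (hc₀ : ∀ y, 0 < c₀ y ∧ c₀ y ≤ 1 / 64) (ha : ∀ y, 4 ≤ a y)
    (hk₁ : ∀ y, 1 / 2 ^ k₁ y ≤ c₀ y ∧ a y + k₁ y ≤ s y) (hE₀ : ∀ y, ‖cl (F y)‖ ^ p ≤ E₀ y)
    (hW : ∀ k : {k // k ∈ K},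
      ENNReal.ofReal ((Lc (Mx F x k) * (1 + ‖cl (F (x k))‖)) ^ p) ≤ W k)
    (hT : Tgt Cu Lc Λ ε' (1 / 2 ^ j) (fun k : {k // k ∈ K} => Mx F x k.1)
      (fun k => bx f F x k.1) (fun k => deep v (fun k => k.1 + a (x k)) (3 * c₀ (x k.1)) k.1)
      (fun k => ‖cl (F (x k.1))‖ₑ ^ p) W δt v ρ J₀ J κ' nt w Act Core CoreN Tt)
    (hδt : ∀ k ∈ K, ∀ y ∈ deep v (fun k => k.1 + a (x k)) (2 * c₀ (x k)) k,
      δt (am f F (x k) y) ≤ c₀ (x k) / 16 / 2 ^ (k.1 + a (x k)) ∧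
      δt (am f F (x k) y) < 1 / 2 ^ (k.1 + s (x k)))
    (hδtε : ∀ y, δt y ≤ ε') (hmod : Mod Ω Λ f δ (1 / 64) J₀ Tt.toFun δs)
    (Dm : Dom Ω v (HF p Ω F) K (fun k => k.1 + a (x k)) (fun k => k.1 + s (x k)) r εD tolD I N')
    (hε₁ : ε₁ ≤ ε')
    (St : St1 p ε₁ Ω Λ f F v (HF p Ω F) K x (fun k => k.1 + a (x k)) (fun k => c₀ (x k))
      (fun k => E₀ (x k)) Eq δs tol
      (part1 v K (fun k => k.1 + a (x k)) (fun k => k₁ (x k)) I)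
      (solid v K (fun k => k.1 + a (x k))
        (part1 v K (fun k => k.1 + a (x k)) (fun k => k₁ (x k)) I)) h₁) :
    R2 p Cu Lc δ j ε' Ω Λ f F v where
  H := HF p Ω F
  K := K
  x := x
  n := fun k => k.1 + a (x k)
  c₀ := fun k => c₀ (x k)
  E := fun k => E₀ (x k)
  Eq := Eq
  δs := δs
  tol := tol
  I₁ := part1 v K (fun k => k.1 + a (x k)) (fun k => k₁ (x k)) I
  S := solid v K (fun k => k.1 + a (x k))
    (part1 v K (fun k => k.1 + a (x k)) (fun k => k₁ (x k)) I)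
  h₁ := h₁
  W := W
  δt := δt
  ρ := ρ
  J₀ := J₀
  J := J
  κ := κ'
  nt := nt
  w := w
  Act := Act
  Core := Core
  CoreN := CoreN
  Tt := Tt
  hε := hε'
  hCu := hCu
  hLc := hLc
  hj := hj
  hδ := hδ
  hΩ := hΩ
  hΛ := hΛ
  hf := hf
  box := fun k hk => ⟨(B.pt k hk).2.1, by have := ha (x k); omega, (hc₀ _).1, (hc₀ _).2,
    (B.pt k hk).2.2.1, hE₀ _⟩
  hW := hW
  disj := B.disj
  fin := B.fin
  st := st1_mono hε₁ St
  tg := hT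
  mod := hmod
  sz := fun k hk y hy => (hδt k hk y hy).1
  sz' := fun k hk q hq hqk y hy => by
    refine (hδt k hk y hy).2.trans_le ?_
    have h1 := solid_gen B.disj (fun k _ => by omega) Dm hk hq hqk
    have h2 : q.1 ≤ k.1 + s (x k) := by
      have := (hk₁ (x k)).2
      rcases h1 with h | h <;> omega
    exact one_div_le_one_div_of_le (by positivity) (pow_le_pow_right₀ (by norm_num) h2)
  szε := hδtε
  szS := fun k hk q hq hqk => by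
    have h1 := solid_gen B.disj (fun k _ => by omega) Dm hk hq hqk
    have h2 : (k.1 + a (x k)) + k₁ (x k) ≤ q.1 := by
      have := (hk₁ (x k)).2
      rcases h1 with h | h <;> omega
    have h3 : (1:ℝ) / 2 ^ q.1 ≤ 1 / 2 ^ ((k.1 + a (x k)) + k₁ (x k)) :=
      one_div_le_one_div_of_le (by positivity) (pow_le_pow_right₀ (by norm_num) h2)
    refine h3.trans ?_
    have h4 : (1:ℝ) / 2 ^ ((k.1 + a (x k)) + k₁ (x k)) =
        1 / 2 ^ k₁ (x k) / 2 ^ (k.1 + a (x k)) := by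
      rw [pow_add _ (k.1 + a (x k)), div_div, mul_comm]
    rw [h4]
    have := (hk₁ (x k)).1
    gcongr

end mk

/-! ### The output of the chain -/

/-- `ChOut` from `ChX` and the energies -/
theorem chOut_of {p Cu : ℝ} {Lc : M3 → ℝ} {δ : ℝ} {j : ℕ} {ε' : ℝ} {Ω Λ : Set V} {f : V → V}
    {F : V → Mat} {v : V} {X : R2 p Cu Lc δ j ε' Ω Λ f F v} {C ε₂ b r₀ : ℝ} {S : Set V}
    {XT : (V → ℝ) → Set Idx → ConHomeo Λ Λ → (V → ℝ) → Prop} {XD : Set Idx → Prop}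
    {C₂ εB M₀ ε₃ : ℝ} {c : ℝ≥0∞} {τ φ κ μ : V → ℝ} {s : V → ℕ} {nn : ℕ → ℕ} {c₀ : V → ℝ}
    {a k₁ : V → ℕ} {E₀ Eb r : V → ℝ} {εD : ℝ≥0∞} {tolD : Idx → ℝ≥0∞} {I : Set Idx}
    {N' : Idx → ℕ} {r' : V → ℝ}
    (H : H234.Ch.ChX X C₂ εB M₀ r₀ b ε₃ c τ φ κ μ s nn c₀ a k₁ E₀ Eb r εD tolD I N')
    (hxt : XT X.ρ X.J₀ X.Tt r') (hsm : ∀ a ∈ Ω, X.δs a ≤ r' a) (hxd : XD I)
    (hoff : ∀ k ∈ X.K, Disjoint (dyc v k.1 k.2) S)
    (hen : ∀ A : Set V, enX X A ≤ ENNReal.ofReal C *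
      (∫⁻ y in {y | y ∈ Ω ∧ infDist y A ≤ r₀}, HF p Ω F y) + ENNReal.ofReal ε₂) :
    ChOut C ε₂ b r₀ S XT XD X I (fun k => k₁ (X.x k)) r' where
  xt := hxt
  small := hsm
  xd := hxd
  eq := H.I₁
  off := hoff
  en := hen
  close := H.clo
  edge := H.edg

end Vale.Agent.P073.H51
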