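import Vale.Agent.P073.Gauge.Lin907

/-!
# P073, [GLUE-C]: curves close to `Ψ ∘ segment` are mapped by `Ψ⁻¹` to curves close to the segment,
with derivatives (`Ψ` conical); bound for the speed of `Ψ ∘ c`
-/

open Set Metric Topology MeasureTheory Filter
open scoped ENNReal

namespace Vale.Agent.P073.H51

open Vale.Agent.P073.St (V)
open _root_.P073 (ConHomeo ConicalOn ConicalAt tcone linSpace)

theorem norm_deriv_le_of {f g : ℝ → V} {f' g' : V} {t K : ℝ} (hf : HasDerivAt f f' t)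
    (hg : HasDerivAt g g' t) (h : ∀ᶠ s in 𝓝 t, ‖f s - f t‖ ≤ K * ‖g s - g t‖) :
    ‖f'‖ ≤ K * ‖g'‖ := by
  have h1 := hasDerivAt_iff_tendsto_slope.1 hf
  have h2 := hasDerivAt_iff_tendsto_slope.1 hg
  refine le_of_tendsto_of_tendsto h1.norm (h2.norm.const_mul K) ?_
  filter_upwards [h.filter_mono nhdsWithin_le_nhds] with s hs
  rw [slope_def_module, slope_def_module, norm_smul, norm_smul, mul_left_comm]
  gcongr

/-- a uniform local Lipschitz constant near a compact set -/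
theorem exists_locLip {Ω X : Set V} {h : V → V} (hΩ : IsOpen Ω) (H : ConicalOn h Ω)
    (hc : ContinuousOn h Ω) (hX : IsCompact X) (hXΩ : X ⊆ Ω) :
    ∃ K : ℝ, 0 ≤ K ∧ ∀ x ∈ X, ∀ᶠ q : V × V in 𝓝 (x, x),
      ‖h q.1 - h q.2‖ ≤ K * ‖q.1 - q.2‖ := by
  refine hX.induction_on (p := fun s => ∃ K : ℝ, 0 ≤ K ∧ ∀ x ∈ s, ∀ᶠ q : V × V in 𝓝 (x, x),
      ‖h q.1 - h q.2‖ ≤ K * ‖q.1 - q.2‖) ⟨0, le_rfl, fun x hx => absurd hx (notMem_empty x)⟩
    ?_ ?_ ?_
  · rintro s t hst ⟨K, hK, h1⟩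
    exact ⟨K, hK, fun x hx => h1 x (hst hx)⟩
  · rintro s t ⟨K, hK, h1⟩ ⟨K', hK', h2⟩
    refine ⟨max K K', hK.trans (le_max_left _ _), ?_⟩
    rintro x (hx | hx)
    · filter_upwards [h1 x hx] with q hq
      exact hq.trans (by gcongr; exact le_max_left _ _)
    · filter_upwards [h2 x hx] with q hq
      exact hq.trans (by gcongr; exact le_max_right _ _)
  · intro x hx
    obtain ⟨δ, hδ, hb, M, hM⟩ := _root_.P073.exists_lipschitz_near hΩ H hc (hXΩ hx)
    refine ⟨ball x δ, mem_nhdsWithin_of_mem_nhds (ball_mem_nhds x hδ), M, M.2, fun y hy => ?_⟩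
    have h1 : ball x δ ∈ 𝓝 y := isOpen_ball.mem_nhds hy
    filter_upwards [prod_mem_nhds h1 h1] with q hq
    have := hM.dist_le_mul _ hq.1 _ hq.2
    rwa [dist_eq_norm, dist_eq_norm] at this

/-- **[GLUE-C2]** the speed of `Ψ ∘ c`, all times -/
theorem comp_speed {S R' : Set V} (hS : IsOpen S) (Ψ : ConHomeo S R') {X : Set V}
    (hX : IsCompact X) (hXS : X ⊆ S) :
    ∃ K : ℝ, 0 ≤ K ∧ ∀ c : ℝ → V, (∀ t ∈ Icc (0:ℝ) 1, c t ∈ X) →
      ∀ t ∈ Icc (0:ℝ) 1, DifferentiableAt ℝ c t →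
        DifferentiableAt ℝ (fun s => Ψ.toFun (c s)) t →
        ‖deriv (fun s => Ψ.toFun (c s)) t‖ ≤ K * ‖deriv c t‖ := by
  obtain ⟨K, hK, h1⟩ := exists_locLip hS Ψ.conical Ψ.cont hX hXS
  refine ⟨K, hK, fun c hcX t ht hc hd => ?_⟩
  refine norm_deriv_le_of hd.hasDerivAt hc.hasDerivAt ?_
  have h2 : Tendsto (fun s => (c s, c t)) (𝓝 t) (𝓝 (c t, c t)) :=
    hc.continuousAt.prodMk_nhds tendsto_const_nhds
  exact h2.eventually (h1 _ (hcX t ht))

/-- **[GLUE-C2]** -/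
theorem comp_len {S R' : Set V} (hS : IsOpen S) (_hR : IsOpen R') (Ψ : ConHomeo S R') {X : Set V}
    (hX : IsCompact X) (hXS : X ⊆ S) :
    ∃ K : ℝ, 0 ≤ K ∧ ∀ c : ℝ → V, ContinuousOn c (Icc 0 1) → (∀ t ∈ Icc (0:ℝ) 1, c t ∈ X) →
      ∀ᵐ t : ℝ, t ∈ Icc (0:ℝ) 1 → DifferentiableAt ℝ c t →
        DifferentiableAt ℝ (fun s => Ψ.toFun (c s)) t →
        ‖deriv (fun s => Ψ.toFun (c s)) t‖ ≤ K * ‖deriv c t‖ := by
  obtain ⟨K, hK, h1⟩ := comp_speed hS Ψ hX hXS
  exact ⟨K, hK, fun c _ hc => Eventually.of_forall fun t ht => h1 c hc t ht⟩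

/-- near a point where `w` is in the linearity space, `Ψ⁻¹` is affine in the direction of the
image of `w` -/
theorem inv_local {S R' : Set V} (hS : IsOpen S) (hR : IsOpen R') (Ψ : ConHomeo S R') {a w : V}
    {t₀ : ℝ} (ht₀ : a + t₀ • w ∈ S) (hw : w ∈ linSpace Ψ.toFun (a + t₀ • w)) :
    ∃ ρ > 0, ∀ t : ℝ, |t - t₀| < ρ → ∀ z : V, ‖z - Ψ.toFun (a + t • w)‖ ≤ ρ →
      ∀ᶠ s : ℝ in 𝓝 0, Ψ.invFun (z + s • deriv (fun s : ℝ => Ψ.toFun (a + s • w)) t) =
        Ψ.invFun z + s • w := by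
  set x : V := a + t₀ • w with hx
  set W : V := tcone Ψ.toFun x w with hW
  obtain ⟨r₁, hr₁, hform⟩ := (Ψ.conical.conicalAt hS ht₀).exists_tcone
  obtain ⟨r₂, hr₂, hball⟩ := Metric.isOpen_iff.1 hS x ht₀
  set r : ℝ := min r₁ r₂ with hr
  have hr0 : 0 < r := lt_min hr₁ hr₂
  -- `Ψ` is affine in the direction `w` near `x`
  have key : ∀ y : V, ‖y - x‖ < r / 2 → ∀ s : ℝ, ‖s • w‖ < r / 2 →
      y + s • w ∈ S ∧ Ψ.toFun (y + s • w) = Ψ.toFun y + s • W := by
    intro y hy s hs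
    have h1 : ‖(y - x) + s • w‖ < r := (norm_add_le _ _).trans_lt (by linarith)
    have e1 := hform ((y - x) + s • w) (h1.le.trans (min_le_left _ _))
    have e2 := hform (y - x) ((by linarith : ‖y - x‖ ≤ r).trans (min_le_left _ _))
    have e3 : x + ((y - x) + s • w) = y + s • w := by abel
    rw [add_sub_cancel] at e2
    rw [e3, (_root_.P073.mem_linSpace.1 hw) s (y - x), ← add_assoc, ← e2] at e1
    refine ⟨hball ?_, e1⟩
    rw [mem_ball, dist_eq_norm, ← e3, add_sub_cancel_left]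
    exact h1.trans_le (min_le_right _ _)
  have hxR : Ψ.toFun x ∈ R' := Ψ.mapsTo ht₀
  -- the neighbourhood of `Ψ x`
  have hN : ∀ᶠ z in 𝓝 (Ψ.toFun x), z ∈ R' ∧ ‖Ψ.invFun z - x‖ < r / 2 := by
    have h1 : ContinuousAt Ψ.invFun (Ψ.toFun x) := Ψ.cont_inv.continuousAt (hR.mem_nhds hxR)
    have h2 : ∀ᶠ z in 𝓝 (Ψ.toFun x), Ψ.invFun z ∈ ball x (r / 2) := by
      refine h1.eventually_mem ?_
      rw [Ψ.left_inv ht₀]
      exact ball_mem_nhds x (by positivity)
    filter_upwards [hR.mem_nhds hxR, h2] with z hz hz2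
    rw [mem_ball, dist_eq_norm] at hz2
    exact ⟨hz, hz2⟩
  obtain ⟨σ, hσ, hσN⟩ := Metric.eventually_nhds_iff_ball.1 hN
  -- the curve is near `Ψ x`
  have hG : ∀ᶠ t in 𝓝 t₀, ‖(t - t₀) • w‖ < r / 2 ∧
      ‖Ψ.toFun (a + t • w) - Ψ.toFun x‖ < σ / 2 := by
    have h1 : Tendsto (fun t : ℝ => ‖(t - t₀) • w‖) (𝓝 t₀) (𝓝 0) := by
      have : Continuous fun t : ℝ => ‖(t - t₀) • w‖ := by fun_prop
      have h2 := this.tendsto t₀
      simpa using h2
    have h2 : ContinuousAt (fun t : ℝ => Ψ.toFun (a + t • w)) t₀ := by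
      have h3 : ContinuousAt Ψ.toFun (a + t₀ • w) := Ψ.cont.continuousAt (hS.mem_nhds ht₀)
      exact ContinuousAt.comp (f := fun t : ℝ => a + t • w) h3 (by fun_prop)
    have h4 : ∀ᶠ t in 𝓝 t₀, Ψ.toFun (a + t • w) ∈ ball (Ψ.toFun x) (σ / 2) :=
      h2.eventually_mem (ball_mem_nhds _ (by positivity))
    filter_upwards [h1.eventually_lt_const (by positivity : (0:ℝ) < r / 2), h4] with t h5 h6
    rw [mem_ball, dist_eq_norm] at h6
    exact ⟨h5, h6⟩
  obtain ⟨ρ, hρ, hρG⟩ := Metric.eventually_nhds_iff_ball.1 hG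
  refine ⟨min ρ (σ / 4), lt_min hρ (by positivity), fun t ht z hz => ?_⟩
  obtain ⟨g1, g2⟩ := hρG t (by
    rw [mem_ball, Real.dist_eq]; exact ht.trans_le (min_le_left _ _))
  have hat : a + t • w = x + (t - t₀) • w := by rw [hx]; module
  -- the derivative of the curve at `t`
  have hd : deriv (fun s : ℝ => Ψ.toFun (a + s • w)) t = W := by
    have hev : ∀ᶠ s : ℝ in 𝓝 t, Ψ.toFun (a + s • w) = Ψ.toFun (a + t • w) + (s - t) • W := by
      have hc : Continuous fun s : ℝ => ‖(s - t) • w‖ := by fun_prop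
      have h1 : ∀ᶠ s : ℝ in 𝓝 t, ‖(s - t) • w‖ < r / 2 :=
        hc.continuousAt.eventually_lt_const (by simpa using (by positivity : 0 < r / 2))
      filter_upwards [h1] with s hs
      have h2 := (key (a + t • w) (by rw [hat, add_sub_cancel_left]; exact g1) (s - t) hs).2
      rw [← h2]
      congr 1
      module
    have hlin : HasDerivAt (fun s : ℝ => Ψ.toFun (a + t • w) + (s - t) • W) W t := by
      have h1 : HasDerivAt (fun s : ℝ => s - t) 1 t := (hasDerivAt_id t).sub_const t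
      have h2 := (h1.smul_const W).const_add (Ψ.toFun (a + t • w))
      rw [one_smul] at h2
      exact h2
    exact (hlin.congr_of_eventuallyEq hev).deriv
  rw [hd]
  obtain ⟨hzR, hzr⟩ := hσN z (by
    rw [mem_ball, dist_eq_norm]
    calc ‖z - Ψ.toFun x‖ ≤ ‖z - Ψ.toFun (a + t • w)‖ + ‖Ψ.toFun (a + t • w) - Ψ.toFun x‖ :=
          norm_sub_le_norm_sub_add_norm_sub _ _ _
      _ < σ := by
          have := hz.trans (min_le_right _ _)
          linarith)
  have hc : Continuous fun s : ℝ => ‖s • w‖ := by fun_prop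
  have h1 : ∀ᶠ s : ℝ in 𝓝 0, ‖s • w‖ < r / 2 :=
    hc.continuousAt.eventually_lt_const (by simpa using (by positivity : 0 < r / 2))
  filter_upwards [h1] with s hs
  obtain ⟨k1, k2⟩ := key (Ψ.invFun z) hzr s hs
  rw [Ψ.right_inv hzR] at k2
  rw [← k2, Ψ.left_inv k1]

/-- **[GLUE-C]** -/
theorem comp_close {S R' : Set V} (hS : IsOpen S) (hR : IsOpen R') (Ψ : ConHomeo S R') {a w : V}
    (hseg : ∀ t ∈ Icc (0:ℝ) 1, a + t • w ∈ S) {ε : ℝ} (hε : 0 < ε) :
    ∃ δ > 0, ∀ c : ℝ → V, (∀ t ∈ Icc (0:ℝ) 1, ‖c t - Ψ.toFun (a + t • w)‖ ≤ δ) →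
      (∀ᵐ t : ℝ, t ∈ Icc (0:ℝ) 1 → DifferentiableAt ℝ c t) →
      (∀ᵐ t : ℝ, t ∈ Icc (0:ℝ) 1 → DifferentiableAt ℝ (fun s => Ψ.invFun (c s)) t) →
      ∫⁻ t in Icc (0:ℝ) 1,
        ENNReal.ofReal ‖deriv c t - deriv (fun s : ℝ => Ψ.toFun (a + s • w)) t‖ ≤
        ENNReal.ofReal δ →
      ∫⁻ t in Icc (0:ℝ) 1, ENNReal.ofReal ‖deriv (fun s => Ψ.invFun (c s)) t - w‖ ≤
        ENNReal.ofReal ε := by
  set G : ℝ → V := fun s => Ψ.toFun (a + s • w) with hG
  have hGc : ContinuousOn G (Icc 0 1) :=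
    Ψ.cont.comp (by fun_prop : Continuous fun s : ℝ => a + s • w).continuousOn hseg
  have hΓ : IsCompact (G '' Icc 0 1) := isCompact_Icc.image_of_continuousOn hGc
  have hΓR : G '' Icc 0 1 ⊆ R' := by
    rintro _ ⟨t, ht, rfl⟩
    exact Ψ.mapsTo (hseg t ht)
  obtain ⟨δ₀, hδ₀, hthick⟩ := hΓ.exists_cthickening_subset_open hR hΓR
  obtain ⟨K, hK, hlip⟩ := exists_locLip hR Ψ.conical_inv Ψ.cont_inv
    (hΓ.cthickening (r := δ₀)) hthick
  -- bound for the speed of `G`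
  obtain ⟨K₂, hK₂⟩ := _root_.P073.Gauge.exists_lipschitz_segment hS Ψ.conical Ψ.cont hseg
  have hGd : ∀ t ∈ Ioo (0:ℝ) 1, ‖deriv G t‖ ≤ K₂ := fun t ht =>
    norm_deriv_le_of_lipschitzOn (Icc_mem_nhds ht.1 ht.2) hK₂
  -- the bad times
  have hB := _root_.P073.Gauge.finite_notMem_linSpace hS Ψ.conical hseg
  set C : ℝ := K * K₂ + ‖w‖ + 1 with hC
  have hC0 : 0 < C := by positivity
  obtain ⟨U, hBU, hU, hUv⟩ := Set.exists_isOpen_lt_of_lt
    {t ∈ Icc (0:ℝ) 1 | w ∉ linSpace Ψ.toFun (a + t • w)} (ENNReal.ofReal (ε / (2 * C)))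
    (μ := volume) (by rw [hB.measure_zero]; exact ENNReal.ofReal_pos.2 (by positivity))
  have hT : IsCompact (Icc (0:ℝ) 1 \ U) := isCompact_Icc.diff hU
  obtain ⟨δ₁, hδ₁, hgood⟩ : ∃ δ₁ > 0, ∀ t ∈ Icc (0:ℝ) 1 \ U, ∀ z : V, ‖z - G t‖ ≤ δ₁ →
      ∀ᶠ s : ℝ in 𝓝 0, Ψ.invFun (z + s • deriv G t) = Ψ.invFun z + s • w := by
    refine hT.induction_on (p := fun A => ∃ δ₁ > 0, ∀ t ∈ A, ∀ z : V, ‖z - G t‖ ≤ δ₁ →
      ∀ᶠ s : ℝ in 𝓝 0, Ψ.invFun (z + s • deriv G t) = Ψ.invFun z + s • w)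
      ⟨1, one_pos, fun t ht => absurd ht (notMem_empty t)⟩ ?_ ?_ ?_
    · rintro A A' hA ⟨δ, hδ, h1⟩
      exact ⟨δ, hδ, fun t ht => h1 t (hA ht)⟩
    · rintro A A' ⟨δ, hδ, h1⟩ ⟨δ', hδ', h2⟩
      refine ⟨min δ δ', lt_min hδ hδ', ?_⟩
      rintro t (ht | ht) z hz
      · exact h1 t ht z (hz.trans (min_le_left _ _))
      · exact h2 t ht z (hz.trans (min_le_right _ _))
    · rintro t₀ ⟨ht₀, ht₀U⟩
      have hw : w ∈ linSpace Ψ.toFun (a + t₀ • w) := by
        by_contra hw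
        exact ht₀U (hBU ⟨ht₀, hw⟩)
      obtain ⟨ρ, hρ, h1⟩ := inv_local hS hR Ψ (hseg t₀ ht₀) hw
      refine ⟨ball t₀ ρ, mem_nhdsWithin_of_mem_nhds (ball_mem_nhds _ hρ), ρ, hρ, fun t ht => ?_⟩
      rw [mem_ball, Real.dist_eq] at ht
      exact h1 t ht
  refine ⟨min (min δ₀ δ₁) (ε / (2 * (K + 1))), by positivity, fun c hc hcd hid hint => ?_⟩
  -- the pointwise estimate
  have hpt : ∀ᵐ t : ℝ ∂volume.restrict (Icc 0 1),
      ENNReal.ofReal ‖deriv (fun s => Ψ.invFun (c s)) t - w‖ ≤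
        ENNReal.ofReal K * ENNReal.ofReal ‖deriv c t - deriv G t‖ +
          U.indicator (fun _ => ENNReal.ofReal C) t := by
    rw [ae_restrict_iff' measurableSet_Icc]
    have hne0 : ∀ᵐ t : ℝ, t ≠ 0 := Measure.ae_ne volume 0
    have hne1 : ∀ᵐ t : ℝ, t ≠ 1 := Measure.ae_ne volume 1
    filter_upwards [hcd, hid, hne0, hne1] with t h1 h2 h3 h4 ht
    have ht' : t ∈ Ioo (0:ℝ) 1 := ⟨lt_of_le_of_ne ht.1 (Ne.symm h3), lt_of_le_of_ne ht.2 h4⟩
    have hcX : c t ∈ cthickening δ₀ (G '' Icc 0 1) := by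
      refine mem_cthickening_of_dist_le (c t) (G t) δ₀ _ (mem_image_of_mem _ ht) ?_
      rw [dist_eq_norm]
      exact (hc t ht).trans ((min_le_left _ _).trans (min_le_left _ _))
    have hcc := (h1 ht).continuousAt
    by_cases htU : t ∈ U
    · -- bad times
      have h5 : ‖deriv (fun s => Ψ.invFun (c s)) t‖ ≤ K * ‖deriv c t‖ := by
        refine norm_deriv_le_of (h2 ht).hasDerivAt (h1 ht).hasDerivAt ?_
        have h6 : Tendsto (fun s => (c s, c t)) (𝓝 t) (𝓝 (c t, c t)) :=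
          hcc.prodMk_nhds tendsto_const_nhds
        exact h6.eventually (hlip _ hcX)
      rw [indicator_of_mem htU, ← ENNReal.ofReal_mul hK, ← ENNReal.ofReal_add (by positivity)
        hC0.le]
      apply ENNReal.ofReal_le_ofReal
      have h6 : ‖deriv c t‖ ≤ ‖deriv c t - deriv G t‖ + ‖deriv G t‖ := by
        have := norm_add_le (deriv c t - deriv G t) (deriv G t)
        rwa [sub_add_cancel] at this
      have h7 := hGd t ht'
      have h8 := norm_sub_le (deriv (fun s => Ψ.invFun (c s)) t) w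
      calc ‖deriv (fun s => Ψ.invFun (c s)) t - w‖ ≤ K * ‖deriv c t‖ + ‖w‖ := by linarith
        _ ≤ K * (‖deriv c t - deriv G t‖ + K₂) + ‖w‖ := by
            gcongr
            linarith
        _ ≤ K * ‖deriv c t - deriv G t‖ + C := by rw [hC]; linarith
    · -- good times
      rw [indicator_of_notMem htU, add_zero, ← ENNReal.ofReal_mul hK]
      apply ENNReal.ofReal_le_ofReal
      have h5 := hgood t ⟨ht, htU⟩ (c t) ((hc t ht).trans
        ((min_le_left _ _).trans (min_le_right _ _)))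
      set W : V := deriv G t with hW
      have hf : HasDerivAt (fun s => Ψ.invFun (c s) - (s - t) • w)
          (deriv (fun s => Ψ.invFun (c s)) t - w) t := by
        have e1 : HasDerivAt (fun s : ℝ => s - t) 1 t := (hasDerivAt_id t).sub_const t
        have e2 := e1.smul_const w
        rw [one_smul] at e2
        exact (h2 ht).hasDerivAt.sub e2
      have hg : HasDerivAt (fun s => c s - (s - t) • W) (deriv c t - W) t := by
        have e1 : HasDerivAt (fun s : ℝ => s - t) 1 t := (hasDerivAt_id t).sub_const t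
        have e2 := e1.smul_const W
        rw [one_smul] at e2
        exact (h1 ht).hasDerivAt.sub e2
      refine norm_deriv_le_of hf hg ?_
      have h6 : Tendsto (fun s : ℝ => (c s, c t + (s - t) • W)) (𝓝 t) (𝓝 (c t, c t)) := by
        refine hcc.prodMk_nhds ?_
        have : Continuous fun s : ℝ => c t + (s - t) • W := by fun_prop
        have h7 := this.tendsto t
        simpa using h7
      have h7 : ∀ᶠ s in 𝓝 t, Ψ.invFun (c t + (s - t) • W) = Ψ.invFun (c t) + (s - t) • w := by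
        have : Tendsto (fun s : ℝ => s - t) (𝓝 t) (𝓝 0) := by
          have h8 : Continuous fun s : ℝ => s - t := by fun_prop
          have h9 := h8.tendsto t
          simpa using h9
        exact this.eventually h5
      filter_upwards [h6.eventually (hlip _ hcX), h7] with s h8 h9
      simp only [sub_self, zero_smul, sub_zero]
      rw [h9] at h8
      have e1 : Ψ.invFun (c s) - (s - t) • w - Ψ.invFun (c t) =
        Ψ.invFun (c s) - (Ψ.invFun (c t) + (s - t) • w) := by abel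
      have e2 : c s - (s - t) • W - c t = c s - (c t + (s - t) • W) := by abel
      rw [e1, e2]
      exact h8
  calc ∫⁻ t in Icc (0:ℝ) 1, ENNReal.ofReal ‖deriv (fun s => Ψ.invFun (c s)) t - w‖
      ≤ ∫⁻ t in Icc (0:ℝ) 1, (ENNReal.ofReal K * ENNReal.ofReal ‖deriv c t - deriv G t‖ +
          U.indicator (fun _ => ENNReal.ofReal C) t) := lintegral_mono_ae hpt
    _ = ENNReal.ofReal K * (∫⁻ t in Icc (0:ℝ) 1, ENNReal.ofReal ‖deriv c t - deriv G t‖) +
          ∫⁻ t in Icc (0:ℝ) 1, U.indicator (fun _ => ENNReal.ofReal C) t := by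
        rw [lintegral_add_right _ (measurable_const.indicator hU.measurableSet),
          lintegral_const_mul' _ _ ENNReal.ofReal_ne_top]
    _ ≤ ENNReal.ofReal K * ENNReal.ofReal (ε / (2 * (K + 1))) +
          ENNReal.ofReal C * ENNReal.ofReal (ε / (2 * C)) := by
        gcongr
        · exact hint.trans (ENNReal.ofReal_le_ofReal (min_le_right _ _))
        · rw [lintegral_indicator_const hU.measurableSet]
          gcongr
          exact (Measure.restrict_apply_le _ _).trans hUv.le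
    _ ≤ ENNReal.ofReal ε := by
        rw [← ENNReal.ofReal_mul hK, ← ENNReal.ofReal_mul hC0.le,
          ← ENNReal.ofReal_add (by positivity) (by positivity)]
        apply ENNReal.ofReal_le_ofReal
        have e1 : C * (ε / (2 * C)) = ε / 2 := by field_simp
        have e2 : K * (ε / (2 * (K + 1))) ≤ ε / 2 := by
          rw [mul_div_assoc', div_le_div_iff₀ (by positivity) (by positivity)]
          nlinarith
        linarith

end Vale.Agent.P073.H51
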