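import Vale.Agent.P073.H51.NetX
import Vale.Agent.P073.LR580.OneD

/-!
# P073, [GLUE]: on an edge in `R` the derivative of a conical map which is equal to `f` on `R`
is the field of `f`
-/

open Set Metric Topology MeasureTheory Filter
open scoped ENNReal

namespace Vale.Agent.P073.H51

open Vale.Agent.P073.St (V Mat euc IsHomeo IsBoundedDomain)
open Vale.Agent.P073.SQ (ev)
open Vale.Agent.P073.AB
open _root_.P073 (ConHomeo)
open _root_.P073.Gauge (gam)

/-- on an edge the line derivative of a map which is equal to `f` near the edge is the field -/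
theorem ae_lineDeriv_eq {Ω R : Set V} {v : V} {f g : V → V} {F : V → Mat}
    (rat : RatGood v Ω f F) (hR : IsOpen R) (hRΩ : R ⊆ Ω) (hg : EqOn g f R)
    {e : Idx × Fin 3} (he : edge v e ⊆ R) :
    ∀ᵐ t ∂(volume.restrict (Icc (0:ℝ) 1)),
      lineDeriv ℝ g (gam v e t) (ev e.2) = cl (F (gam v e t)) (ev e.2) := by
  have h1 := PK.RatGood.goodSeg rat (_root_.P073.GS.pt_rat v e.1.1 e.1.2)
    (_root_.P073.GS.pt_rat' v e) (he.trans hRΩ)
  rw [add_sub_cancel_left] at h1
  have h2 : IntervalIntegrable (_root_.P073.GS.De v F e) volume 0 1 := h1.1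
  have h3 : ∀ t ∈ Icc (0:ℝ) 1, f (gam v e t) = f (gam v e 0) +
      ∫ s in (0:ℝ)..t, _root_.P073.GS.De v F e s := by
    intro t ht
    have h3 := h1.2 t ht
    have h0 : gam v e 0 = pt v e.1.1 e.1.2 := by simp [gam]
    rw [h0]
    exact h3
  rw [ae_restrict_iff' measurableSet_Icc]
  have hne0 : ∀ᵐ t : ℝ, t ≠ 0 := Measure.ae_ne volume 0
  have hne1 : ∀ᵐ t : ℝ, t ≠ 1 := Measure.ae_ne volume 1
  filter_upwards [_root_.P073.LR580.ae_hasDerivAt h2 h3, hne0, hne1] with t h4 h5 h6 ht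
  have ht' : t ∈ Ioo (0:ℝ) 1 := ⟨lt_of_le_of_ne ht.1 (Ne.symm h5), lt_of_le_of_ne ht.2 h6⟩
  have h7 := h4 ht'
  have hcont : Continuous (gam v e) := by
    unfold gam
    fun_prop
  have hev : (fun s => g (gam v e s)) =ᶠ[𝓝 t] fun s => f (gam v e s) := by
    have h8 : ∀ᶠ s in 𝓝 t, gam v e s ∈ R :=
      hcont.continuousAt.eventually_mem (hR.mem_nhds (he (_root_.P073.GS.gam_mem ht)))
    filter_upwards [h8] with s hs
    exact hg hs
  have h8 := (h7.congr_of_eventuallyEq hev).deriv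
  rw [_root_.P073.Gauge.O407.deriv_gam, _root_.P073.GS.de_eq] at h8
  have hne : (1 / 2 ^ e.1.1 : ℝ) ≠ 0 := by positivity
  exact smul_right_injective V hne h8

theorem eInt_congr_ae {v : V} {e : Idx × Fin 3} {H K : V → ℝ≥0∞}
    (h : ∀ᵐ t ∂(volume.restrict (Icc (0:ℝ) 1)), H (gam v e t) = K (gam v e t)) :
    eInt v e H = eInt v e K := by
  have h1 : eInt v e H = ENNReal.ofReal (1 / 2 ^ e.1.1) *
    ∫⁻ t in Icc (0:ℝ) 1, H (gam v e t) := rfl
  have h2 : eInt v e K = ENNReal.ofReal (1 / 2 ^ e.1.1) *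
    ∫⁻ t in Icc (0:ℝ) 1, K (gam v e t) := rfl
  rw [h1, h2, lintegral_congr_ae h]

/-- the energy of the difference is zero -/
theorem eInt_zero {Ω R : Set V} {v : V} {f g : V → V} {F : V → Mat}
    (rat : RatGood v Ω f F) (hR : IsOpen R) (hRΩ : R ⊆ Ω) (hg : EqOn g f R)
    {e : Idx × Fin 3} (he : edge v e ⊆ R) :
    eInt v e (fun x => ENNReal.ofReal ‖cl (F x) (ev e.2) - lineDeriv ℝ g x (ev e.2)‖) = 0 := by
  rw [eInt_congr_ae (K := fun _ => 0)]
  · have h1 : eInt v e (fun _ => (0 : ℝ≥0∞)) = ENNReal.ofReal (1 / 2 ^ e.1.1) *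
      ∫⁻ t in Icc (0:ℝ) 1, (0 : ℝ≥0∞) := rfl
    rw [h1]
    simp
  · filter_upwards [ae_lineDeriv_eq rat hR hRΩ hg he] with t ht
    rw [ht, sub_self, norm_zero, ENNReal.ofReal_zero]

/-- in `eInt` on an edge in `R` the field of `f` may be replaced by the line derivative of `g` -/
theorem eInt_sub_eq {Ω R : Set V} {v : V} {f g : V → V} {F : V → Mat}
    (rat : RatGood v Ω f F) (hR : IsOpen R) (hRΩ : R ⊆ Ω) (hg : EqOn g f R)
    {e : Idx × Fin 3} (he : edge v e ⊆ R) (h : V → V) :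
    eInt v e (fun x => ENNReal.ofReal ‖lineDeriv ℝ h x (ev e.2) - lineDeriv ℝ g x (ev e.2)‖) =
      eInt v e (fun x => ENNReal.ofReal ‖lineDeriv ℝ h x (ev e.2) - cl (F x) (ev e.2)‖) := by
  refine eInt_congr_ae ?_
  filter_upwards [ae_lineDeriv_eq rat hR hRΩ hg he] with t ht
  rw [ht]

/-- maps which are equal on a neighbourhood of the edge -/
theorem eInt_congr_nhd {U : Set V} {v : V} {g h : V → V} (hU : IsOpen U) (hgh : EqOn g h U)
    {e : Idx × Fin 3} (he : edge v e ⊆ U) (H : V → V → ℝ≥0∞) :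
    eInt v e (fun x => H x (lineDeriv ℝ g x (ev e.2))) =
      eInt v e (fun x => H x (lineDeriv ℝ h x (ev e.2))) := by
  refine eInt_congr_ae ?_
  rw [ae_restrict_iff' measurableSet_Icc]
  refine Eventually.of_forall fun t ht => ?_
  have h1 : lineDeriv ℝ g (gam v e t) (ev e.2) = lineDeriv ℝ h (gam v e t) (ev e.2) := by
    unfold lineDeriv
    refine Filter.EventuallyEq.deriv_eq ?_
    have hc : Continuous fun s : ℝ => gam v e t + s • (ev e.2 : V) := by fun_prop
    have h2 : ∀ᶠ s : ℝ in 𝓝 0, gam v e t + s • (ev e.2 : V) ∈ U := by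
      refine hc.continuousAt.eventually_mem ?_
      rw [zero_smul, add_zero]
      exact hU.mem_nhds (he (_root_.P073.GS.gam_mem ht))
    filter_upwards [h2] with s hs
    exact hgh hs
  rw [h1]

/-- maps which are equal on the edge (no neighbourhood) -/
theorem eInt_congr_edge {v : V} {g h : V → V} {e : Idx × Fin 3} (hgh : EqOn g h (edge v e))
    (H : V → V → ℝ≥0∞) :
    eInt v e (fun x => H x (lineDeriv ℝ g x (ev e.2))) =
      eInt v e (fun x => H x (lineDeriv ℝ h x (ev e.2))) := by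
  refine eInt_congr_ae ?_
  rw [ae_restrict_iff' measurableSet_Icc]
  have hne0 : ∀ᵐ t : ℝ, t ≠ 0 := Measure.ae_ne volume 0
  have hne1 : ∀ᵐ t : ℝ, t ≠ 1 := Measure.ae_ne volume 1
  filter_upwards [hne0, hne1] with t h5 h6 ht
  have ht' : t ∈ Ioo (0:ℝ) 1 := ⟨lt_of_le_of_ne ht.1 (Ne.symm h5), lt_of_le_of_ne ht.2 h6⟩
  have hev : (fun s => g (gam v e s)) =ᶠ[𝓝 t] fun s => h (gam v e s) := by
    filter_upwards [isOpen_Ioo.mem_nhds ht'] with s hs
    exact hgh (_root_.P073.GS.gam_mem ⟨hs.1.le, hs.2.le⟩)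
  have h8 := hev.deriv_eq
  rw [_root_.P073.Gauge.O407.deriv_gam, _root_.P073.Gauge.O407.deriv_gam] at h8
  have hne : (1 / 2 ^ e.1.1 : ℝ) ≠ 0 := by positivity
  rw [smul_right_injective V hne h8]

end Vale.Agent.P073.H51
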