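import Vale.Agent.P073.GS580.NetE
import Vale.Agent.P073.Gauge.Of407a
import Vale.Agent.P073.AB.Graph907
import Vale.Agent.P073.PA285.Top

/-!
# P073, [GLUE-N]: NET on any locally finite set of dyadic edges, with closeness
-/

open Set Metric Topology MeasureTheory Filter
open scoped ENNReal

namespace Vale.Agent.P073.H51

open Vale.Agent.P073.St (V Mat euc IsHomeo IsBoundedDomain)
open Vale.Agent.P073.SQ (ev)
open Vale.Agent.P073.AB
open _root_.P073 (ConHomeo)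
open _root_.P073.Gauge (gam)
open _root_.P073.Top (RatAC)

/-- **[GLUE-N]** NET on the edges `X` -/
theorem exists_netX {Ω Λ : Set V} {f : V → V} {v : V} (hΩ : IsBoundedDomain Ω)
    (hΛ : IsBoundedDomain Λ) (hf : IsHomeo Ω Λ f) (hAC : RatAC v Ω f) {X : Set (Idx × Fin 3)}
    (hX : ∀ e ∈ X, edge v e ⊆ Ω)
    (hfin : ∀ K ⊆ Ω, IsCompact K → {e | e ∈ X ∧ (edge v e ∩ K).Nonempty}.Finite)
    (D : Idx × Fin 3 → ℝ → V)
    (hD : ∀ e ∈ X, IntervalIntegrable (D e) volume 0 1 ∧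
      ∀ t ∈ Icc (0:ℝ) 1, f (gam v e t) = f (gam v e 0) + ∫ s in (0:ℝ)..t, D e s)
    (δ : Idx × Fin 3 → ℝ) (hδ : ∀ e, 0 < δ e) {σ : V → ℝ} (hσ : ContinuousOn σ Ω)
    (hσ0 : ∀ x ∈ Ω, 0 < σ x) :
    ∃ h : ConHomeo Ω Λ, (∀ x ∈ Ω, ‖h.toFun x - f x‖ ≤ σ x) ∧
      ∀ e ∈ X, (∀ x ∈ edge v e, ‖h.toFun x - f x‖ ≤ δ e) ∧
        (∃ K : NNReal, LipschitzOnWith K (fun t : ℝ => h.toFun (gam v e t)) (Icc 0 1)) ∧
        ∫⁻ t in Icc (0:ℝ) 1,
          ENNReal.ofReal ‖deriv (fun s => h.toFun (gam v e s)) t - D e t‖ ≤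
            ENNReal.ofReal (δ e) := by
  obtain ⟨h, h1, h2⟩ := _root_.P073.H894.netOutFamN PA285.netOutN 1 Ω Λ f v X
    (Set.to_countable _)
    (fun e => pt v e.1.1.1 e.1.1.2)
    (fun e => pt v e.1.1.1 e.1.1.2 + (1 / 2 ^ e.1.1.1 : ℝ) • ev e.1.2)
    (fun e => D e.1) le_rfl one_le_two hΩ.1 hΩ.2.1 hΛ.1 hf hAC
    (fun e => ⟨_root_.P073.GS.pt_rat _ _ _, _root_.P073.GS.pt_rat' _ _,
      fun h => _root_.P073.GS.ev_smul_ne e.1 (by
        have := congrArg (fun x => x - pt v e.1.1.1 e.1.1.2) h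
        simp only [sub_self, add_sub_cancel_left] at this
        exact this.symm)⟩)
    (fun e => hX e.1 e.2)
    (fun K hK hKc => by
      have h3 := hfin K hK hKc
      refine (h3.preimage (f := ((↑) : X → Idx × Fin 3)) Subtype.val_injective.injOn).subset ?_
      intro e he
      exact ⟨e.2, he⟩)
    (fun e => (hD e.1 e.2).1)
    (fun e t ht => by
      have := (hD e.1 e.2).2 t ht
      rw [add_sub_cancel_left]
      have h0 : gam v e.1 0 = pt v e.1.1.1 e.1.1.2 := by simp [gam]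
      rw [h0] at this
      exact this)
    (fun e => by
      simp only [Real.rpow_one]
      have h3 := (hD e.1 e.2).1
      rw [intervalIntegrable_iff] at h3 ⊢
      exact _root_.P073.Net.integrable_euc h3)
    (fun e => δ e.1) (fun e => hδ e.1) σ hσ hσ0
  refine ⟨h, h1, fun e he => ?_⟩
  obtain ⟨h3, h5, h4⟩ := h2 ⟨e, he⟩
  simp only [add_sub_cancel_left] at h3 h4 h5
  refine ⟨fun x hx => ?_, h5, ?_⟩
  · obtain ⟨t, ht, rfl⟩ := _root_.P073.GS.exists_gam hx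
    exact h3 t ht
  · have h6 := _root_.P073.GS.lint_euc zero_le_one h4
    simp only [Real.rpow_one] at h6
    exact h6

/-- **[GLUE-N]** in terms of `eInt`, for a map which is absolutely continuous on all rational
segments -/
theorem exists_netF {Ω Λ : Set V} {f : V → V} {F : V → Mat} {v : V} (hΩ : IsBoundedDomain Ω)
    (hΛ : IsBoundedDomain Λ) (hf : IsHomeo Ω Λ f) (rat : RatGood v Ω f F)
    {X : Set (Idx × Fin 3)} (hX : ∀ e ∈ X, edge v e ⊆ Ω)
    (hfin : ∀ K ⊆ Ω, IsCompact K → {e | e ∈ X ∧ (edge v e ∩ K).Nonempty}.Finite)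
    (δ : Idx × Fin 3 → ℝ) (hδ : ∀ e, 0 < δ e) {σ : V → ℝ} (hσ : ContinuousOn σ Ω)
    (hσ0 : ∀ x ∈ Ω, 0 < σ x) :
    ∃ h : ConHomeo Ω Λ, (∀ x ∈ Ω, ‖h.toFun x - f x‖ ≤ σ x) ∧
      ∀ e ∈ X, (∀ x ∈ edge v e, ‖h.toFun x - f x‖ ≤ δ e) ∧
        eInt v e (fun x => ENNReal.ofReal ‖lineDeriv ℝ h.toFun x (ev e.2) - cl (F x) (ev e.2)‖) ≤
          ENNReal.ofReal (δ e) := by
  obtain ⟨h, h1, h2⟩ := exists_netX hΩ hΛ hf (PK.RatGood.ratAC rat) hX hfin
    (_root_.P073.GS.De v F)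
    (fun e he => by
      have h1 := PK.RatGood.goodSeg rat (_root_.P073.GS.pt_rat v e.1.1 e.1.2)
        (_root_.P073.GS.pt_rat' v e) (hX e he)
      rw [add_sub_cancel_left] at h1
      refine ⟨h1.1, fun t ht => ?_⟩
      have h3 := h1.2 t ht
      have h0 : gam v e 0 = pt v e.1.1 e.1.2 := by simp [gam]
      rw [h0]
      exact h3) δ hδ hσ hσ0
  refine ⟨h, h1, fun e he => ?_⟩
  obtain ⟨h3, -, h4⟩ := h2 e he
  refine ⟨h3, le_trans (le_of_eq ?_) h4⟩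
  have h5 : eInt v e (fun x => ENNReal.ofReal
      ‖lineDeriv ℝ h.toFun x (ev e.2) - cl (F x) (ev e.2)‖) =
      ENNReal.ofReal (1 / 2 ^ e.1.1) * ∫⁻ t in Icc (0:ℝ) 1, ENNReal.ofReal
        ‖lineDeriv ℝ h.toFun (gam v e t) (ev e.2) - cl (F (gam v e t)) (ev e.2)‖ := rfl
  rw [h5, ← lintegral_const_mul' _ _ ENNReal.ofReal_ne_top]
  refine lintegral_congr fun t => ?_
  rw [_root_.P073.Gauge.O407.deriv_gam, _root_.P073.GS.de_eq, ← smul_sub, norm_smul,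
    Real.norm_of_nonneg (by positivity), ENNReal.ofReal_mul (by positivity)]

/-! ### local finiteness -/

/-- finitely many edges of one generation meet a bounded set -/
theorem finite_gen {v : V} {m : ℕ} {A : Set V} (hA : Bornology.IsBounded A) :
    {e : Idx × Fin 3 | e.1.1 = m ∧ (edge v e ∩ A).Nonempty}.Finite := by
  obtain ⟨R, hR⟩ := hA.exists_norm_le
  set N : ℤ := ⌈2 ^ m * (|R| + ‖v‖ + 1)⌉ with hN
  have hfin : (({m} : Set ℕ) ×ˢ (Set.pi univ fun _ : Fin 3 => Icc (-N) N)).Finite :=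
    Set.Finite.prod (finite_singleton _) (Set.Finite.pi fun j => Set.finite_Icc _ _)
  refine (hfin.prod (finite_univ (α := Fin 3))).subset ?_
  rintro ⟨⟨m', z⟩, k⟩ ⟨hm, x, hx, hxA⟩
  simp only at hm
  subst hm
  refine ⟨⟨rfl, fun j _ => ?_⟩, mem_univ _⟩
  obtain ⟨t, ht, rfl⟩ := _root_.P073.GS.exists_gam hx
  have h1 := hR _ hxA
  have h2 : |gam v ((m', z), k) t j| ≤ |R| :=
    (norm_le_pi_norm (gam v ((m', z), k) t) j).trans (h1.trans (le_abs_self R))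
  have h3 : |v j| ≤ ‖v‖ := norm_le_pi_norm v j
  have hp : (0:ℝ) < 2 ^ m' := by positivity
  have h4 : gam v ((m', z), k) t j = v j + z j / 2 ^ m' +
      t * ((1 / 2 ^ m') * (if j = k then 1 else 0)) := by
    by_cases hj : j = k
    · subst hj
      simp [gam, pt, ev]
    · simp [gam, pt, ev, hj]
  have h5 : 0 ≤ t * ((1 / 2 ^ m') * (if j = k then 1 else 0 : ℝ)) ∧
      t * ((1 / 2 ^ m') * (if j = k then 1 else 0 : ℝ)) ≤ 1 := by
    have h6 : (1:ℝ) / 2 ^ m' ≤ 1 := by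
      rw [div_le_one hp]
      exact one_le_pow₀ (by norm_num)
    have h7 : (0:ℝ) ≤ 1 / 2 ^ m' := by positivity
    split_ifs
    · rw [mul_one]
      exact ⟨mul_nonneg ht.1 h7, mul_le_one₀ ht.2 h7 h6⟩
    · simp
  rw [h4] at h2
  obtain ⟨a1, a2⟩ := abs_le.1 h2
  obtain ⟨b1, b2⟩ := abs_le.1 h3
  have hzz : |(z j : ℝ) / 2 ^ m'| ≤ |R| + ‖v‖ + 1 := by
    rw [abs_le]
    constructor
    · linarith [h5.2]
    · linarith [h5.1]
  rw [abs_div, abs_of_pos hp, div_le_iff₀ hp] at hzz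
  have h8 : |(z j : ℝ)| ≤ N := by
    refine hzz.trans ?_
    rw [mul_comm, hN]
    exact Int.le_ceil _
  rw [abs_le] at h8
  constructor
  · have := h8.1
    exact_mod_cast this
  · have := h8.2
    exact_mod_cast this

/-- the edges of a partition and the edges of generation `G k` in the sets `B k` -/
theorem finite_X {Ω : Set V} {v : V} {I : Set Idx} (hI : Part Ω v I) {κ : Type*} {K : Set κ}
    {B : κ → Set V} {G : κ → ℕ} (hb : ∀ k ∈ K, Bornology.IsBounded (B k))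
    (hfin : ∀ C ⊆ Ω, IsCompact C → {k | k ∈ K ∧ (B k ∩ C).Nonempty}.Finite) :
    ∀ C ⊆ Ω, IsCompact C → {e | ((∃ q ∈ I, EdgeOf e q) ∨
      ∃ k ∈ K, e.1.1 = G k ∧ edge v e ⊆ B k) ∧ (edge v e ∩ C).Nonempty}.Finite := by
  intro C hC hCc
  have h1 := Gr.finite_edges (v := v) hI hC hCc
  have h2 := (hfin C hC hCc).biUnion (t := fun k => {e : Idx × Fin 3 | k ∈ K ∧ e.1.1 = G k ∧
    (edge v e ∩ B k).Nonempty}) (fun k hk => by
      by_cases hkK : k ∈ K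
      · refine (finite_gen (v := v) (m := G k) (hb k hkK)).subset ?_
        rintro e ⟨-, h3, h4⟩
        exact ⟨h3, h4⟩
      · refine (finite_empty).subset ?_
        rintro e ⟨h3, -⟩
        exact hkK h3)
  refine (h1.union h2).subset ?_
  rintro e ⟨he | ⟨k, hk, h3, h4⟩, hne⟩
  · exact Or.inl ⟨he, hne⟩
  · refine Or.inr (mem_iUnion₂.2 ⟨k, ⟨hk, hne.mono (inter_subset_inter_left _ h4)⟩, hk, h3, ?_⟩)
    obtain ⟨y, hy, -⟩ := hne
    exact ⟨y, hy, h4 hy⟩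

end Vale.Agent.P073.H51
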